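import Vale.Agent.P165.Powers

/-!
Hand-in for P165: nonuniqueness for large degree with a spectral gap, and for all high powers of
nonamenable graphs.
-/

namespace Vale.Agent.Results.P165.LargeDegree

open Vale.Agent.P165

theorem result.{u} :
    (∀ δ : ℝ, 0 < δ → ∃ D₀ : ℕ, ∀ (V : Type u) [Infinite V] (G : SimpleGraph V)
      [G.LocallyFinite] (D : ℕ), D₀ ≤ D → G.Connected → QuasiTransitive G →
      (∀ v, G.degree v = D) →
      (∀ A : Finset V, A.Nonempty → δ * D * A.card ≤ edgeBoundary G A) → pc G < pu G) ∧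
    (∀ (V : Type u) [Infinite V] (G : SimpleGraph V) [G.LocallyFinite] (D : ℕ) (lam : ℝ),
      G.Connected → QuasiTransitive G → (∀ v, G.degree v = D) → 1 < lam →
      (∀ (N : ℕ) (v : V), (∑ n ∈ Finset.range N,
        (n : ℝ) * (lam / D) ^ n * (returns G n v : ℝ)) ≤ (lam - 1) / 6) → pc G < pu G) ∧
    (∀ (V : Type u) [Infinite V] (G : SimpleGraph V) [G.LocallyFinite],
      G.Connected → Transitive' G → Nonamenable G →
      ∃ K : ℕ, ∀ k, K ≤ k → pc (powerGraph G k) < pu (powerGraph G k)) ∧
    (∀ (V : Type u) [Infinite V] (G : SimpleGraph V) [G.LocallyFinite] (D : ℕ),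
      G.Connected → QuasiTransitive G → (∀ v, G.degree v = D) → Nonamenable G →
      ∃ K : ℕ, ∀ k, K ≤ k → pc (cartPower G k) < pu (cartPower G k)) :=
  ⟨nonuniqueness_large_degree.1, nonuniqueness_large_degree.2,
    fun V _ G _ hc htr hna => powers_nonunique V G hc htr hna,
    fun V _ G _ D hc hqt hD hna => cart_nonunique V G D hD hc hqt hna⟩

end Vale.Agent.Results.P165.LargeDegree
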